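import Vale.Agent.P092GE.Lev

/-!
P092 (helper96), block GEO: the test families on the target group.
-/

set_option linter.all false

open Filter Topology MeasureTheory Set

namespace Vale.Agent.P092GE

open P092GK P092GK.FlD P092GD P092NW

theorem int_le {G : Type} [MeasurableSpace G] {μ : Measure G} {A X : Set G} (hA : MeasurableSet A)
    (hX : MeasurableSet X) (h0 : μ X ≠ ⊤) {f : G → ℝ} (h1 : ∀ x, 0 ≤ f x) (h2 : ∀ x, f x ≤ 1)
    (h3 : ∀ x ∈ A, f x ≠ 0 → x ∈ X) : ∫ x in A, f x ∂μ ≤ μ.real X := by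
  have h4 := Measure.restrict_apply_le A X (μ := μ)
  refine (integral_mono_of_nonneg (Eventually.of_forall h1) (g := X.indicator 1)
    ((integrable_indicator_iff hX).2 (integrableOn_const (ne_top_of_le_ne_top h0 h4)))
    (ae_restrict_of_forall_mem hA fun x hx => ?_)).trans ?_
  · by_cases e : x ∈ X
    · simpa [e] using h2 x
    · simpa [e] using (by_contra fun c => e (h3 x hx c) : f x = 0).le
  · rw [integral_indicator_one hX]
    exact ENNReal.toReal_mono h0 h4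

variable {k : Type} [NontriviallyNormedField k] {G : Type} [Group G] {r : ℕ} {F : FlD k G r}
  {θ : Finset (Fin r)} {ε : ℝ}

variable (F θ ε) in
/-- the cutoff on the flag space -/
noncomputable def η (y : G) : ℝ := cut ε (F.dP θ y 1)

variable (F θ) in
/-- the other gaps -/
noncomputable def oth (y : G) : ℝ := ‖fun i => if i ∈ θ then 0 else F.κ y i‖

variable (F θ ε) in
/-- the small neighbourhood -/
def O : Set G := {w | F.len w ≤ 1 ∧ F.dP θ w 1 ≤ ε / 2 ∧ F.dP θ w⁻¹ 1 ≤ ε / 2}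

theorem η_lip (hε : 0 < ε) (x y : G) : |η F θ ε x - η F θ ε y| ≤ 2 / ε * F.dP θ x y := by
  refine (cut_lip hε _ _).trans (mul_le_mul_of_nonneg_left (abs_le.2 ⟨?_, ?_⟩) (by positivity))
  · have := dY_triangle (θ := θ) (y : F.Y θ) (x : F.Y θ) ((1 : G) : F.Y θ)
    rw [dY_mk, dY_mk, dY_mk, dP_comm θ y x] at this
    linarith
  · have := dY_triangle (θ := θ) (x : F.Y θ) (y : F.Y θ) ((1 : G) : F.Y θ)
    rw [dY_mk, dY_mk, dY_mk] at this
    linarith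

theorem oth_lip (x y : G) : |oth F θ x - oth F θ y| ≤ ‖F.κ x - F.κ y‖ :=
  (abs_norm_sub_norm_le _ _).trans ((pi_norm_le_iff_of_nonneg (norm_nonneg _)).2 fun i => by
    by_cases e : i ∈ θ
    · simp [e]
    · simpa [e] using norm_le_pi_norm (F.κ x - F.κ y) i)

theorem le_oth (x : G) {i : Fin r} (e : i ∉ θ) : |F.κ x i| ≤ oth F θ x := by
  simpa [e, oth] using norm_le_pi_norm (fun i => if i ∈ θ then 0 else F.κ x i) i

theorem mul_lip {a a' b b' : ℝ} (h1 : 0 ≤ a) (h2 : a ≤ 1) (h3 : 0 ≤ b') (h4 : b' ≤ 1) :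
    |a * b - a' * b'| ≤ |a - a'| + |b - b'| := by
  rw [show a * b - a' * b' = (a - a') * b' + a * (b - b') by ring]
  refine (abs_add_le _ _).trans (add_le_add ?_ ?_) <;> rw [abs_mul]
  · exact mul_le_of_le_one_right (abs_nonneg _) (by rwa [abs_of_nonneg h3])
  · exact mul_le_of_le_one_left (abs_nonneg _) (by rwa [abs_of_nonneg h1])

variable [TopologicalSpace G] [IsTopologicalGroup G] [T2Space G] [ProperSpace k] (h : Fl F)
include h

theorem cont_dP1 : Continuous fun y => F.dP θ y 1 :=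
  (h.cont_dP θ).comp (f := fun y => (y, 1)) (by fun_prop)

theorem cpt_O : IsCompact (O F θ ε) := (cpt_B h 1).inter_right
  ((isClosed_le (cont_dP1 h) continuous_const).inter
    (isClosed_le ((cont_dP1 h).comp continuous_inv) continuous_const))

theorem O_nhds (hε : 0 < ε) : O F θ ε ∈ 𝓝 (1 : G) := by
  have h1 : F.dP θ 1 1 < ε / 2 := (dY_self (θ := θ) ((1 : G) : F.Y θ)).trans_lt (half_pos hε)
  exact inter_mem (B_nhds h one_pos) (inter_mem
    (((cont_dP1 h).tendsto 1).eventually (ge_mem_nhds h1))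
    ((((cont_dP1 h).comp continuous_inv).tendsto 1).eventually (ge_mem_nhds (by simpa using h1))))

theorem struct [LocallyCompactSpace G] (θ : Finset (Fin r)) : ∃ ε : ℝ, 0 < ε ∧ ∃ D : ℝ, 1 ≤ D ∧
    ∀ (n : ℕ), ∀ w ∈ O F θ ε, ∀ s (S : ℝ), F.len s ≤ S → D * (1 + S) ≤ n →
      η F θ ε (w * (F.cb θ ^ n)⁻¹ * s) ≠ 0 → ∃ b, ∃ l ∈ F.L θ, F.len b ≤ D ∧ F.len l ≤ S + D ∧
        w * (F.cb θ ^ n)⁻¹ * s = b * ((F.cb θ ^ n)⁻¹ * l) := by
  obtain ⟨ε, hε, K, hK, hKm, H⟩ := cell h θ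
  obtain ⟨L₀, hL₀, -, hL⟩ := h.um_bdd hK
  obtain ⟨R, hR, hR'⟩ := h.len_cpt (hK.union hL₀)
  obtain ⟨C₁, hC₁, shr⟩ := shrink h (F.cb θ)
  obtain ⟨C₂, hC₂, hlp⟩ := len_lp h θ
  have p1 : 0 ≤ C₁ * (2 * R + C₂ + 2) := by positivity
  refine ⟨ε, hε, C₁ * (2 * R + C₂ + 2) + (R + C₂ + 2), by linarith, fun n w hw s S hs hn h0 => ?_⟩
  have S0 := (len_nonneg s).trans hs
  obtain ⟨u, hu, p, hp, e⟩ := H w⁻¹ _ (len_inv (F := F) w ▸ hw.1) (hw.2.2.trans (half_le_self hε.le))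
    (not_lt.1 fun c => h0 (cut_zero hε c.le))
  have hc := h.dom_pow (h.cb_dom θ) n
  have hp' := (F.P θ).mul_mem (h.z_mem_P hc.1 θ) hp
  have a1 : F.len (F.cb θ ^ n * p) ≤ R + S := by
    have := h.len_mul (F.cb θ ^ n * u * (F.cb θ ^ n)⁻¹)⁻¹ s
    rw [len_inv, show (F.cb θ ^ n * u * (F.cb θ ^ n)⁻¹)⁻¹ * s = F.cb θ ^ n * p by
      rw [← inv_mul_cancel_left u p, ← e]; group] at this
    linarith [hR' _ (Or.inr (hL _ hc u hu (hKm hu)))]
  have a2 := hlp _ hp'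
  obtain ⟨m1, m2, -⟩ := h.lp_spec hp'
  generalize F.lp θ (F.cb θ ^ n * p) = l at *
  have a3 := h.len_mul (F.cb θ ^ n * p) l⁻¹
  rw [len_inv] at a3
  have m3 := h.U_conj m1 m2
  rw [mul_inv_cancel_left] at m3
  have a4 := (len_le_gam h _).trans (shr _ m3 n 0 le_rfl (le_trans (by
    nlinarith [mul_nonneg (zero_le_one.trans hC₁) S0, mul_nonneg p1 S0, mul_nonneg hC₂ S0,
      mul_nonneg (mul_nonneg (zero_le_one.trans hC₁) (show 0 ≤ 2 * R + C₂ by linarith)) S0,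
      mul_le_mul_of_nonneg_left (show F.len (F.cb θ ^ n * p * l⁻¹) ≤ 2 * (R + S) + C₂ by linarith)
        (zero_le_one.trans hC₁), mul_nonneg (zero_le_one.trans hR) S0]) hn))
  rw [neg_zero, Real.exp_zero] at a4
  refine ⟨_, l, m1, (len3 h w u _).trans (add_le_add (add_le_add hw.1 (hR' u (Or.inl hu))) a4 |>.trans
    (by linarith)), by linarith, ?_⟩
  rw [← mul_inv_cancel_left w (w * _ * s), e]
  group

variable [MeasurableSpace G] {C : Set G} {kl kr : G → G} {t : G → Fin r → ℤ} (hK : Kak F C kl t kr)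
include hK

theorem slow_η (hε : 0 < ε) : ∃ D : ℝ, 0 ≤ D ∧ ∀ x s g u (τ : ℝ), (∀ j ∈ θ, τ ≤ F.κ g j) →
    |η F θ ε (x * kl (s * g * u)) - η F θ ε (x * s * kl g)| ≤
      Real.exp (D + 2 * (F.len x + F.len s + F.len u) - τ) := by
  obtain ⟨A, hA, H⟩ := h.flag_equiv hK
  obtain ⟨D, hD, H'⟩ := h.dY_lip
  refine ⟨2 / ε * D * A, by positivity, fun x s g u τ hτ => (η_lip hε _ _).trans ?_⟩
  have a1 := H' θ x (kl (s * g * u)) (s • (kl g : F.Y θ))
  rw [smul_mk, smul_mk, smul_mk, dY_mk, ← mul_assoc, dY_comm] at a1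
  calc _ ≤ 2 / ε * (D * Real.exp (2 * F.len x) * (A * Real.exp (-τ + 2 * (F.len s + F.len u)))) :=
        mul_le_mul_of_nonneg_left (a1.trans (mul_le_mul_of_nonneg_left (H θ s g u τ hτ)
          (by positivity))) (by positivity)
    _ = 2 / ε * D * A * Real.exp (2 * F.len x + (-τ + 2 * (F.len s + F.len u))) := by
        rw [Real.exp_add (2 * F.len x)]; ring
    _ ≤ Real.exp (2 / ε * D * A) * _ := by
        gcongr; linarith [Real.add_one_le_exp (2 / ε * D * A)]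
    _ = _ := by rw [← Real.exp_add]; congr 1; ring

theorem uc_η (hε : 0 < ε) {Γ : Type} (g : Γ → G) : UC fun x γ => η F θ ε (x * kl (g γ)) := by
  refine ⟨fun _ _ => cut_nonneg _ _, fun _ _ => cut_le _ _, fun x₀ δ hδ => ?_⟩
  have hc : Continuous (η F θ ε) := (cont_cut ε).comp (cont_dP1 h)
  filter_upwards [hK.cpt.eventually_forall_of_forall_eventually (x₀ := x₀)
    (P := fun x y => |η F θ ε (x * y) - η F θ ε (x₀ * y)| ≤ δ) fun y _ =>
      ((show Continuous fun z : G × G => |η F θ ε (z.1 * z.2) - η F θ ε (x₀ * z.2)| by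
        fun_prop).tendsto _).eventually (ge_mem_nhds (by simpa using hδ))] with x hx γ
  exact hx _ (hK.kl_mem _)

omit hK [MeasurableSpace G] in
theorem uc_mul {Γ : Type} (g : Γ → G) {ψ : G → Γ → ℝ} [MeasurableSpace G] (hψ : UC ψ) {R : ℝ}
    (hR : 0 < R) : UC fun x γ => cut R (oth F θ (x * g γ)) * ψ x γ := by
  refine ⟨fun _ _ => mul_nonneg (cut_nonneg _ _) (hψ.nonneg _ _),
    fun _ _ => mul_le_one₀ (cut_le _ _) (hψ.nonneg _ _) (hψ.le_one _ _), fun x₀ δ hδ => ?_⟩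
  obtain ⟨D, hD, H⟩ := h.κ_lip
  have hl := h.cont_len
  filter_upwards [hψ.cont x₀ _ (half_pos hδ), ((show Continuous fun x => 2 / R * (D * F.len (x * x₀⁻¹)) by
    fun_prop).tendsto x₀).eventually (ge_mem_nhds (show _ < δ / 2 by simpa [h.len_one] using hδ))]
    with x h1 h2 γ
  refine (mul_lip (cut_nonneg _ _) (cut_le _ _) (hψ.nonneg _ _) (hψ.le_one _ _)).trans ?_
  have a1 := H (x * x₀⁻¹) (x₀ * g γ) 1
  rw [h.len_one, add_zero, mul_one, mul_assoc, inv_mul_cancel_left] at a1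
  linarith [h1 γ, (cut_lip hR _ _).trans (mul_le_mul_of_nonneg_left ((oth_lip (θ := θ) _ _).trans a1)
    (by positivity))]

theorem big : ∃ D : ℝ, 1 ≤ D ∧ ∀ g i, |F.κ g i - F.β * t g i| ≤ D := by
  obtain ⟨D, hD, H⟩ := h.κ_cpt hK.cpt
  refine ⟨D, hD, fun g i => ?_⟩
  have := H _ (h.a_dom (hK.t_nonneg g)) _ (hK.kl_mem g) _ (hK.kr_mem g) i
  rwa [← hK.eq, h.ℓ_a] at this

theorem box (θ : Finset (Fin r)) {D M P : ℝ} (hD : 1 ≤ D) (hM : 1 ≤ M) (hP : 1 ≤ P) :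
    ∃ Q T C₀ : ℝ, 1 ≤ Q ∧ 1 ≤ T ∧ ∀ J R : ℝ, 1 ≤ J → 1 ≤ R → ∀ x g b, ∀ l ∈ F.L θ, F.len b ≤ D →
      F.len l ≤ M * J → x * kl g = b * l → (∀ i ∈ θ, C₀ * J ≤ F.κ g i) → oth F θ (x * g) ≤ P * R →
      ∃ s, F.len (x * (kl g * F.a s)) ≤ Q * R ∧ ∀ i, |(s i : ℝ)| ≤ T * J * R := by
  obtain ⟨R₀, hR₀, hC⟩ := h.len_cpt hK.cpt
  obtain ⟨D₂, hD₂, hb⟩ := big h hK
  obtain ⟨D₃, hD₃, hlip⟩ := h.κ_lip
  obtain ⟨D₄, hD₄, hlev⟩ := lev h θ
  obtain ⟨D₅, hD₅, htl⟩ := t_le h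
  have hβ := h.β_pos
  obtain ⟨P', hP', eP⟩ : ∃ P' : ℝ, 1 ≤ P' ∧ P' = P + D₃ * (D + R₀) :=
    ⟨_, by linarith [show 0 ≤ D₃ * (D + R₀) by positivity], rfl⟩
  obtain ⟨Q, hQ, eQ⟩ : ∃ Q : ℝ, 1 ≤ Q ∧ Q = D + D₄ * P' :=
    ⟨_, by linarith [show 0 ≤ D₄ * P' by positivity], rfl⟩
  refine ⟨Q, D₅ * (1 + Q + D + M), F.β * (D₄ * (1 + M)) + D₂, hQ,
    one_le_mul_of_one_le_of_one_le hD₅ (by linarith), fun J R hJ hR x g b l m1 a1 a4 a3 hγ h1 => ?_⟩
  obtain ⟨s, hs⟩ := hlev l m1 _ (hK.t_nonneg g) (fun i hi => by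
    refine le_of_mul_le_mul_left ?_ hβ
    have b2 : F.β * (D₄ * (1 + F.len l)) ≤ F.β * (D₄ * (1 + M)) * J := by
      rw [mul_assoc, mul_assoc]; gcongr; linarith
    linarith [(abs_le.1 (hb g i)).2, hγ i hi, le_mul_of_one_le_right (zero_le_one.trans hD₂) hJ])
    (P' * R) (one_le_mul_of_one_le_of_one_le hP' hR) fun i hi => by
      have b1 := (le_oth _ hi).trans h1
      have b2 := (norm_le_pi_norm _ i).trans (hlip b (l * F.a (t g)) (kr g))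
      rw [← mul_assoc, ← a3, mul_assoc x, mul_assoc x, ← hK.eq, Pi.sub_apply, Real.norm_eq_abs] at b2
      have b3 : D₃ * (F.len b + F.len (kr g)) ≤ D₃ * (D + R₀) * R :=
        le_trans (by gcongr; exact hC _ (hK.kr_mem g)) (le_mul_of_one_le_right (by positivity) hR)
      rw [abs_le] at b1 b2 ⊢
      rw [eP]
      constructor <;> linarith [b1.1, b1.2, b2.1, b2.2]
  have a5 : F.len (x * (kl g * F.a (t g - s))) ≤ Q * R := by
    rw [← mul_assoc, a3, sub_eq_add_neg, h.a_add, h.a_neg, mul_assoc, ← mul_assoc l, eQ]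
    linarith [h.len_mul b (l * F.a (t g) * (F.a s)⁻¹), le_mul_of_one_le_right (zero_le_one.trans hD) hR]
  refine ⟨_, a5, fun i => (htl _ i).trans ?_⟩
  generalize t g - s = s' at *
  have a6 := h.len_mul (b * l)⁻¹ (x * (kl g * F.a s'))
  rw [len_inv, ← mul_assoc x, a3, inv_mul_cancel_left] at a6
  rw [← mul_assoc, a3] at a5
  rw [mul_assoc, mul_assoc]
  gcongr
  have b1 := one_le_mul_of_one_le_of_one_le hJ hR
  linarith [h.len_mul b l, mul_le_mul_of_nonneg_left (le_mul_of_one_le_left (by linarith) hJ : R ≤ J * R)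
    (zero_le_one.trans hQ), mul_le_mul_of_nonneg_left (le_mul_of_one_le_right (by linarith) hR : J ≤ J * R)
    (zero_le_one.trans hM), le_mul_of_one_le_right (zero_le_one.trans hD) b1]

theorem low (θ : Finset (Fin r)) : ∃ P : ℝ, 1 ≤ P ∧ ∀ (n : ℕ) (R : ℝ), 1 ≤ R → ∀ x g w, F.len w ≤ 1 →
    x * kl g = w * (F.cb θ ^ n)⁻¹ → (∀ i ∈ θ, F.β * n + P ≤ F.κ g i) → (∀ i, i ∉ θ → F.κ g i ≤ R) →
    oth F θ (x * g) ≤ P * R := by
  obtain ⟨D₁, hD₁, hκ⟩ := h.κ_cpt (hK.cpt.union (cpt_B h 1))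
  obtain ⟨D₂, hD₂, hb⟩ := big h hK
  have hβ := h.β_pos
  refine ⟨1 + D₁ + D₂, by linarith, fun n R hR x g w hw ew hγ hγ' => ?_⟩
  have a2 : 0 ≤ -(fun i => if i ∈ θ then (n : ℤ) else 0) + t g := fun i => by
    by_cases hi : i ∈ θ
    · have b2 : (n : ℝ) ≤ t g i :=
        le_of_mul_le_mul_left (by linarith [(abs_le.1 (hb g i)).2, hγ i hi]) hβ
      simp only [Pi.add_apply, Pi.neg_apply, if_pos hi, Pi.zero_apply, le_neg_add_iff_add_le, add_zero]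
      exact_mod_cast b2
    · simpa [hi] using hK.t_nonneg g i
  refine (pi_norm_le_iff_of_nonneg (by positivity)).2 fun i => ?_
  by_cases hi : i ∈ θ
  · simp only [if_pos hi, norm_zero]; positivity
  have b1 := abs_le.1 (hκ _ (h.a_dom a2) w (Or.inr hw) _ (Or.inl (hK.kr_mem g)) i)
  rw [h.ℓ_a, h.a_add, h.a_neg, ← cb_pow h, ← mul_assoc, ← ew, mul_assoc x, mul_assoc x, ← hK.eq] at b1
  have b3 : (0 : ℝ) ≤ F.β * t g i := mul_nonneg hβ.le (Int.cast_nonneg (hK.t_nonneg g i))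
  simp only [Pi.add_apply, Pi.neg_apply, if_neg hi, neg_zero, zero_add] at b1
  rw [if_neg hi, Real.norm_eq_abs, abs_le]
  constructor <;> linarith [(abs_le.1 (hb g i)).1, b1.1, b1.2, hγ' i hi,
    le_mul_of_one_le_right (zero_le_one.trans hD₁) hR, le_mul_of_one_le_right (zero_le_one.trans hD₂) hR]

variable [BorelSpace G] [LocallyCompactSpace G] (μ : Measure G) [μ.IsHaarMeasure]
  [μ.IsMulRightInvariant] {Γ : Type} [Group Γ] (e : Γ →* G)

omit hK in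
theorem vol_box {Q T : ℝ} (hQ : 1 ≤ Q) (hT : 1 ≤ T) : ∃ C₀ : ℝ, 0 ≤ C₀ ∧ ∀ J R : ℝ, 1 ≤ J → 1 ≤ R →
    ∀ y, ∃ X, MeasurableSet X ∧ μ X ≠ ⊤ ∧ μ.real X ≤ Real.exp (C₀ * R) * J ^ r ∧ ∀ x s,
      F.len (x * (y * F.a s)) ≤ Q * R → (∀ i, |(s i : ℝ)| ≤ T * J * R) → x ∈ X := by
  classical
  obtain ⟨V, hV, hvol⟩ := vol h μ
  refine ⟨3 * T * r + V * Q, by positivity, fun J R hJ hR y => ?_⟩
  let X := Fintype.piFinset fun _ : Fin r => Finset.Icc (-(⌊T * J * R⌋₊ : ℤ)) ⌊T * J * R⌋₊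
  refine ⟨⋃ s ∈ X, (· * (y * F.a s)) ⁻¹' B F (Q * R), X.measurableSet_biUnion fun s _ =>
    (cpt_B h _).measurableSet.preimage (measurable_mul_const _),
    (measure_biUnion_lt_top X.finite_toSet fun s _ => ?_).ne,
    (measureReal_biUnion_finset_le _ _).trans ?_,
    fun x s a5 a7 => mem_iUnion₂.2 ⟨s, Fintype.mem_piFinset.2 fun i => ?_, a5⟩⟩
  · rw [measure_preimage_mul_right]; exact (cpt_B h _).measure_lt_top
  · simp only [Measure.real, measure_preimage_mul_right, Finset.sum_const, nsmul_eq_mul]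
    have a1 : (X.card : ℝ) ≤ (3 * T * R * J) ^ r := by
      have b1 := Nat.floor_le (show 0 ≤ T * J * R by positivity)
      have b2 := one_le_mul_of_one_le_of_one_le (one_le_mul_of_one_le_of_one_le hT hJ) hR
      simp only [X, Fintype.card_piFinset, Int.card_Icc, Finset.prod_const, Finset.card_univ,
        Fintype.card_fin]
      rw [show ((⌊T * J * R⌋₊ : ℤ) + 1 - -(⌊T * J * R⌋₊ : ℤ)).toNat = 2 * ⌊T * J * R⌋₊ + 1 by omega]
      push_cast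
      gcongr
      linarith
    calc _ ≤ (3 * T * R * J) ^ r * Real.exp (V * (Q * R)) :=
          mul_le_mul a1 (hvol _ (one_le_mul_of_one_le_of_one_le hQ hR)) ENNReal.toReal_nonneg
            (by positivity)
      _ ≤ Real.exp (3 * T * R) ^ r * J ^ r * Real.exp (V * (Q * R)) := by
          rw [mul_pow]; gcongr; linarith [Real.add_one_le_exp (3 * T * R)]
      _ = _ := by
          rw [mul_right_comm, ← Real.exp_nat_mul, ← Real.exp_add]
          congr 2; ring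
  · have a8 := Nat.le_floor (n := (s i).natAbs) (a := T * J * R) (by simpa using a7 i)
    rw [Finset.mem_Icc, ← abs_le, ← Int.natCast_natAbs]
    exact_mod_cast a8

theorem geoD (θ : Finset (Fin r)) : ∃ c₀ : ℝ, 0 < c₀ ∧ ∀ᶠ C' in atTop, ∀ c ≤ c₀, ∀ J R : ℝ, 1 ≤ J →
    1 ≤ R → ∃ A A' ψ Φ, GeoD μ e (fun γ => F.len (e γ)) (fun i γ => F.κ (e γ)⁻¹ i) C' c r θ J R
      A A' ψ Φ := by
  obtain ⟨ε, hε, D, hD, str⟩ := struct h θ
  obtain ⟨D₁, hD₁, slw⟩ := slow_η h hK (θ := θ) hε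
  obtain ⟨R₀, hR₀, hC⟩ := h.len_cpt hK.cpt
  obtain ⟨V, hV, hvol⟩ := vol h μ
  have hβ := h.β_pos
  have c0 := len_nonneg (F := F) (F.cb θ)
  obtain ⟨N, hN, eN⟩ : ∃ N : ℝ, 0 ≤ N ∧ N = D * (2 + 2 * R₀) + 1 := ⟨_, by positivity, rfl⟩
  obtain ⟨M, hM, eM⟩ : ∃ M : ℝ, 1 ≤ M ∧ M = N * F.len (F.cb θ) + (2 + 2 * R₀ + D) :=
    ⟨_, by linarith [mul_nonneg hN c0], rfl⟩
  obtain ⟨P, hP, hlow⟩ := low h hK θ
  obtain ⟨Q, T, C₀, hQ, hT, hbox⟩ := box h hK θ hD hM (P := 2 * P) (by linarith)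
  obtain ⟨C₁, hC₁, hvb⟩ := vol_box h μ hQ hT
  have hO := cpt_O h (θ := θ) (ε := ε)
  refine ⟨μ.real (O F θ ε), ENNReal.toReal_pos (μ.measure_pos_of_mem_nhds (O_nhds h hε)).ne'
    hO.measure_lt_top.ne, ?_⟩
  filter_upwards [eventually_ge_atTop (V * M), eventually_ge_atTop (D₁ + 2 * M + 2),
    eventually_ge_atTop (μ.real (B F (2 * D + 2 * R₀))), eventually_ge_atTop (F.β * N + P),
    eventually_ge_atTop C₀, eventually_ge_atTop C₁] with C' c1 c2 c3 c4 c5 c6 c hc J R hJ hR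
  have J0 : 0 ≤ J := by linarith
  have mJ : ∀ {a : ℝ}, 0 ≤ a → a ≤ a * J := fun ha => le_mul_of_one_le_right ha hJ
  have CJ : ∀ {a : ℝ}, a ≤ C' → a * J ≤ C' * (J + R) := fun ha =>
    mul_le_mul ha (by linarith) J0 (by linarith)
  obtain ⟨n, n1, n2⟩ : ∃ n : ℕ, D * (1 + (J + 2 * R₀)) ≤ n ∧ (n : ℝ) ≤ N * J := by
    refine ⟨_, Nat.le_ceil _, (Nat.ceil_lt_add_one (by positivity)).le.trans ?_⟩
    rw [eN]
    linarith [mJ (show 0 ≤ D * (1 + 2 * R₀) by positivity)]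
  have hb : F.len (F.cb θ ^ n)⁻¹ + (2 + 2 * R₀ + D) * J ≤ M * J := by
    rw [len_inv, eM]
    linarith [h.len_pow (F.cb θ) n, mul_le_mul_of_nonneg_right n2 c0]
  have m1 := mJ (zero_le_one.trans hR₀)
  have m2 := mJ (zero_le_one.trans hD)
  let A : Set G := (fun q : G × G => q.1 * (F.cb θ ^ n)⁻¹ * q.2) '' O F θ ε ×ˢ C
  let A' : Set G := (fun q : G × G => q.1 * q.2) '' A ×ˢ B F J
  have hA : IsCompact A := (hO.prod hK.cpt).image (by fun_prop)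
  have hA' : IsCompact A' := (hA.prod (cpt_B h J)).image (by fun_prop)
  have lA : ∀ x ∈ A, F.len x + J ≤ M * J := by
    rintro _ ⟨⟨w, y⟩, ⟨hw, hy⟩, rfl⟩
    linarith [len3 h w (F.cb θ ^ n)⁻¹ y, hw.1, hC y hy]
  have hψ := uc_η h hK (θ := θ) hε fun γ => (e γ)⁻¹
  have p2 : 0 < 2 * P * R := by positivity
  have hΦ := uc_mul h (θ := θ) (fun γ => (e γ)⁻¹) hψ p2
  have sl : ∀ x ∈ A, ∀ τ γ s, γ ∈ Big (fun i γ => F.κ (e γ)⁻¹ i) θ τ → F.len (e s) ≤ J →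
      |η F θ ε (x * kl (e (γ * s))⁻¹) - η F θ ε (x * (e s)⁻¹ * kl (e γ)⁻¹)| ≤
        Real.exp (C' * J - τ) := fun x hx τ γ s hγ hs => by
    have := slw x (e s)⁻¹ (e γ)⁻¹ 1 τ hγ
    rw [mul_one, len_inv, h.len_one, ← _root_.mul_inv_rev, ← map_mul] at this
    exact this.trans (Real.exp_le_exp.2 (by
      linarith [lA x hx, mul_le_mul_of_nonneg_right c2 J0, mJ hD₁]))
  refine ⟨A, A', _, _, hA.measurableSet, hA'.measurableSet, ⟨A', hA', subset_rfl⟩,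
    fun x hx s hs => ⟨(x, (e s)⁻¹), ⟨hx, (len_inv _).trans_le hs⟩, rfl⟩, ?_, hψ, hΦ,
    fun x hx τ γ s hγ => ?_, sl, fun x hx τ γ s hγ hs => ?_, fun γ => ?_, fun γ hγ => ?_,
    fun γ hγ hγ' => hc.trans ?_⟩
  · refine (measureReal_mono ?_ (cpt_B h (M * J)).measure_lt_top.ne).trans
      ((hvol _ (one_le_mul_of_one_le_of_one_le hM hJ)).trans (Real.exp_le_exp.2 (by
        linarith [mul_le_mul_of_nonneg_right c1 J0])))
    rintro _ ⟨⟨x, y⟩, ⟨hx, hy⟩, rfl⟩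
    exact (h.len_mul x y).trans ((add_le_add_right hy _).trans (lA x hx))
  · have := slw x 1 (e γ)⁻¹ (e s)⁻¹ τ hγ
    rw [one_mul, mul_one, len_inv, h.len_one, ← _root_.mul_inv_rev, ← map_mul] at this
    exact this.trans (Real.exp_le_exp.2 (by
      linarith [lA x hx, mul_le_mul_of_nonneg_right c2 J0, mJ hD₁, mul_le_mul_of_nonneg_right
        (show 2 ≤ C' by linarith) (len_nonneg (F := F) (e s))]))
  · rw [map_mul, _root_.mul_inv_rev, ← mul_assoc, ← mul_sub, abs_mul, abs_of_nonneg (cut_nonneg _ _),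
      ← _root_.mul_inv_rev, ← map_mul]
    exact (mul_le_of_le_one_left (abs_nonneg _) (cut_le _ _)).trans (sl x hx τ γ s hγ hs)
  · refine (int_le hA.measurableSet ((cpt_B h (2 * D + 2 * R₀)).measurableSet.preimage
      (measurable_mul_const (kl (e γ)⁻¹ * F.cb θ ^ n))) ?_
      (fun _ => hψ.nonneg _ _) (fun _ => hψ.le_one _ _) ?_).trans ?_
    · rw [measure_preimage_mul_right]; exact (cpt_B h _).measure_lt_top.ne
    · rintro _ ⟨⟨w, y⟩, ⟨hw, hy⟩, rfl⟩ h0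
      have a0 := hC _ (hK.kl_mem (e γ)⁻¹)
      obtain ⟨b, l, hl, a1, a2, a3⟩ := str n w hw (y * kl (e γ)⁻¹) (2 * R₀)
        (by linarith [h.len_mul y (kl (e γ)⁻¹), hC y hy]) (le_trans (by gcongr; linarith) n1)
        (by rwa [← mul_assoc])
      show F.len (w * (F.cb θ ^ n)⁻¹ * y * (kl (e γ)⁻¹ * F.cb θ ^ n)) ≤ _
      rw [← mul_assoc, mul_assoc _ y, a3, ((Commute.pow_left (h.cb_comm hl) n).inv_left).eq,
        ← mul_assoc, inv_mul_cancel_right]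
      linarith [h.len_mul b l]
    · rwa [Measure.real, measure_preimage_mul_right]
  · obtain ⟨X, x1, x2, x3, x4⟩ := hvb J R hJ hR (kl (e γ)⁻¹)
    refine (int_le hA'.measurableSet x1 x2 (fun _ => hΦ.nonneg _ _) (fun _ => hΦ.le_one _ _) ?_).trans
      (x3.trans (by gcongr))
    rintro _ ⟨⟨_, q⟩, ⟨⟨⟨w, y⟩, ⟨hw, hy⟩, rfl⟩, hq⟩, rfl⟩ h0
    obtain ⟨h1, h2⟩ := mul_ne_zero_iff.1 h0
    have a0 := hC _ (hK.kl_mem (e γ)⁻¹)
    have hq' : F.len q ≤ J := hq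
    obtain ⟨b, l, hl, a1, a2, a3⟩ := str n w hw (y * q * kl (e γ)⁻¹) (J + 2 * R₀)
      (by linarith [len3 h y q (kl (e γ)⁻¹), hC y hy]) n1 (by rwa [← mul_assoc, ← mul_assoc])
    rw [← mul_assoc, ← mul_assoc] at a3
    obtain ⟨s, s1, s2⟩ := hbox J R hJ hR _ _ b _ ((F.L θ).mul_mem
      (h.z_mem_L (F.Z.inv_mem (F.Z.pow_mem (h.cb_mem θ) n)) θ) hl) a1
      (by linarith [h.len_mul (F.cb θ ^ n)⁻¹ l]) a3 (fun i hi => (CJ c5).trans (hγ i hi))
      (not_lt.1 fun c => h1 (cut_zero p2 c.le))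
    exact x4 _ s s1 s2
  · have mO : MeasurableSet ((· * (kl (e γ)⁻¹ * F.cb θ ^ n)) ⁻¹' O F θ ε) :=
      hO.measurableSet.preimage (measurable_mul_const _)
    have sb : (· * (kl (e γ)⁻¹ * F.cb θ ^ n)) ⁻¹' O F θ ε ⊆ A := fun x hx =>
      ⟨(_, _), ⟨hx, hK.inv _ (hK.kl_mem (e γ)⁻¹)⟩, by dsimp only; group⟩
    have ct : ∀ {f : G → Γ → ℝ}, UC f → Continuous fun x => f x γ := fun hf =>
      continuous_iff_continuousAt.2 fun x => Metric.tendsto_nhds.2 fun δ hδ =>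
        (hf.cont x _ (half_pos hδ)).mono fun y hy => (hy γ).trans_lt (half_lt_self hδ)
    refine le_trans (le_of_eq ?_) (setIntegral_mono_set
      (((ct hΦ).mul (ct hψ)).continuousOn.integrableOn_compact hA)
      (Eventually.of_forall fun x => mul_nonneg (hΦ.nonneg _ _) (hψ.nonneg _ _)) sb.eventuallyLE)
    rw [setIntegral_congr_fun mO (g := fun _ => (1 : ℝ)) fun x hx => ?_]
    · simp [Measure.real, measure_preimage_mul_right]
    obtain ⟨w, hw, ew⟩ : ∃ w ∈ O F θ ε, x * kl (e γ)⁻¹ = w * (F.cb θ ^ n)⁻¹ := ⟨_, hx, by group⟩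
    have a1 : η F θ ε (x * kl (e γ)⁻¹) = 1 := by
      rw [ew, η, dP_P (h.z_mem_P (F.Z.inv_mem (F.Z.pow_mem (h.cb_mem θ) n)) θ)]
      exact cut_one hε hw.2.1
    have a3 := hlow n R hR x _ w hw.1 ew (fun i hi => le_trans (by
      linarith [CJ c4, mul_le_mul_of_nonneg_left n2 hβ.le, mJ (zero_le_one.trans hP)]) (hγ i hi)) hγ'
    simp only [Pi.mul_apply, a1, cut_one p2 (a3.trans_eq (by ring)), mul_one]

omit hK in
/-- **Block GEO.** -/
theorem geo [SecondCountableTopology G] (hd : ∀ K, IsCompact K → (e ⁻¹' K).Finite) :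
    ∃ C c₀ : ℝ, Gp (fun γ => F.len (e γ)) (fun i γ => F.κ (e γ)⁻¹ i) C ∧
      Geo μ e (fun γ => F.len (e γ)) (fun i γ => F.κ (e γ)⁻¹ i) C c₀ r := by
  obtain ⟨K, kl, t, kr, hK⟩ := h.exists_kak
  choose c hc H using geoD h hK μ e
  obtain ⟨c₀, h0, -, h1⟩ := cpt_low (isCompact_singleton (x := ())) (fun θ _ => c θ)
    (fun _ => continuousOn_const) fun θ _ _ => hc θ
  obtain ⟨C, hC⟩ := gp h e hd
  obtain ⟨C', h2, h3⟩ := ((eventually_ge_atTop C).and (eventually_all.2 H)).exists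
  exact ⟨C', c₀, hC C' h2, h0, fun θ J R hJ hR => h3 θ c₀ (h1 θ () rfl) J R hJ hR⟩

end Vale.Agent.P092GE
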