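import Vale.Agent.P092GD.Nim
import Vale.Agent.P092GK.Pair
import Vale.Agent.P092NW.Defs

/-!
P092 (helper96), block GEO: exponential growth of the balls, and the gaps on a discrete subgroup.
-/

set_option linter.all false

open Filter Topology MeasureTheory Set
open scoped Pointwise

namespace Vale.Agent.P092GE

open P092GK P092GK.FlD P092GD

variable {k : Type} [NontriviallyNormedField k] {G : Type} [Group G] {r : ℕ} {F : FlD k G r}

variable (F) in
/-- the balls -/
def B (R : ℝ) : Set G := {g | F.len g ≤ R}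

theorem B_mono {R R' : ℝ} (e : R ≤ R') : B F R ⊆ B F R' := fun _ h => le_trans h e

variable [TopologicalSpace G] (h : Fl F)
include h

theorem len3 (a b c : G) : F.len (a * b * c) ≤ F.len a + F.len b + F.len c := by
  linarith [h.len_mul (a * b) c, h.len_mul a b]

theorem len_step : ∃ S : ℝ, 1 ≤ S ∧ ∀ t : Fin r → ℤ, (∀ i, |t i| ≤ 1) → F.len (F.a t) ≤ S := by
  have : (pi univ fun _ : Fin r => Icc (-1 : ℤ) 1).Finite := Finite.pi fun _ => finite_Icc _ _
  obtain ⟨S, hS⟩ := (this.image fun t => F.len (F.a t)).bddAbove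
  exact ⟨max S 1, le_max_right _ _, fun t ht =>
    (hS ⟨t, fun i _ => abs_le.1 (ht i), rfl⟩).trans (le_max_left _ _)⟩

theorem a_mem_pow {S : ℝ} (hS : ∀ t : Fin r → ℤ, (∀ i, |t i| ≤ 1) → F.len (F.a t) ≤ S) (M : ℕ)
    (t : Fin r → ℤ) (ht : ∀ i, |t i| ≤ M) : F.a t ∈ B F S ^ M := by
  induction M generalizing t with
  | zero =>
    rw [show t = 0 from funext fun i => abs_nonpos_iff.1 (ht i), h.a_zero, pow_zero]
    rfl
  | succ M ih =>
    rw [pow_succ, show t = (t - fun i => (t i).sign) + fun i => (t i).sign by simp, h.a_add]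
    refine mul_mem_mul (ih _ fun i => ?_) (hS _ fun i => ?_)
    · have := ht i
      simp only [Pi.sub_apply]
      rcases lt_trichotomy (t i) 0 with e | e | e
      · rw [Int.sign_eq_neg_one_of_neg e]; rw [abs_le] at this ⊢; push_cast at this; omega
      · simp [e]
      · rw [Int.sign_eq_one_of_pos e]; rw [abs_le] at this ⊢; push_cast at this; omega
    · rcases lt_trichotomy (t i) 0 with e | e | e
      · simp [Int.sign_eq_neg_one_of_neg e]
      · simp [e]
      · simp [Int.sign_eq_one_of_pos e]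

theorem len_of_pow {S : ℝ} {M : ℕ} {g : G} (hg : g ∈ B F S ^ M) : F.len g ≤ M * S := by
  induction M generalizing g with
  | zero => rw [pow_zero, Set.mem_one] at hg; simp [hg, h.len_one]
  | succ M ih =>
    rw [pow_succ] at hg
    obtain ⟨a, ha, b, hb, rfl⟩ := hg
    have : F.len b ≤ S := hb
    push_cast
    linarith [h.len_mul a b, ih ha]

theorem len_a : ∃ S : ℝ, 1 ≤ S ∧ ∀ (t : Fin r → ℤ) (M : ℝ), 0 ≤ M → (∀ i, |(t i : ℝ)| ≤ M) →
    F.len (F.a t) ≤ S * M := by
  obtain ⟨S, hS, H⟩ := len_step h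
  refine ⟨S, hS, fun t M hM ht => (len_of_pow h (a_mem_pow h H ⌊M⌋₊ t fun i => ?_)).trans ?_⟩
  · have := Nat.le_floor (n := (t i).natAbs) (a := M) (by simpa using ht i)
    rw [← Int.natCast_natAbs]
    exact_mod_cast this
  · rw [mul_comm]
    exact mul_le_mul_of_nonneg_left (Nat.floor_le hM) (by linarith)

theorem t_le : ∃ C : ℝ, 1 ≤ C ∧ ∀ t i, |(t i : ℝ)| ≤ C * (1 + F.len (F.a t)) := by
  obtain ⟨C, hC, H⟩ := h.ht_bound
  obtain ⟨D, hD, H'⟩ := F.co_bound
  have hβ := h.β_pos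
  refine ⟨max 1 (D * (2 * C) / F.β), le_max_left _ _, fun t i => ?_⟩
  have h0 := len_nonneg (F := F) (F.a t)
  have h1 : ‖F.ω (F.ℓ (F.a t))‖ ≤ 2 * C * (1 + F.len (F.a t)) := by
    refine (pi_norm_le_iff_of_nonneg (by positivity)).2 fun j => ?_
    have e := congrFun (h.ht_z (h.a_mem t) 1) j
    rw [one_mul, Pi.add_apply] at e
    have a1 := abs_le.1 (H (F.a t) j).1
    have a2 := abs_le.1 (H 1 j).1
    rw [h.len_one] at a2
    rw [Real.norm_eq_abs, abs_le]
    constructor <;> nlinarith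
  have h2 := (norm_le_pi_norm _ i).trans ((H' _).trans (mul_le_mul_of_nonneg_left h1 (by linarith)))
  rw [h.co_ω, h.ℓ_a, Real.norm_eq_abs, abs_mul, abs_of_pos hβ] at h2
  refine le_trans ?_ (mul_le_mul_of_nonneg_right (le_max_right _ _) (by linarith))
  rw [div_mul_eq_mul_div, le_div_iff₀' hβ, mul_assoc]
  exact h2

variable [IsTopologicalGroup G] [T2Space G] [ProperSpace k]

theorem B_nhds {R : ℝ} (hR : 0 < R) : B F R ∈ 𝓝 (1 : G) :=
  (h.cont_len.tendsto 1).eventually (ge_mem_nhds (by rwa [h.len_one]))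

theorem cpt_B (R : ℝ) : IsCompact (B F R) := h.cpt_len R

/-- covering numbers -/
theorem cover : ∃ C : ℝ, 1 ≤ C ∧ ∀ J, 1 ≤ J → ∃ T : Finset G, (T.card : ℝ) ≤ Real.exp (C * J) ∧
    B F J ⊆ T * B F 1 := by
  classical
  obtain ⟨K, hK, kak⟩ := h.kak
  obtain ⟨R, hR, hR'⟩ := h.len_cpt hK
  obtain ⟨S, hS, hS'⟩ := len_step h
  obtain ⟨D, hD, hD'⟩ := t_le h
  obtain ⟨T, -, hT⟩ := (cpt_B h (1 + (R + S))).elim_nhds_subcover (fun x => x • B F 1) fun x _ => by
    simpa using smul_mem_nhds_smul x (B_nhds h one_pos)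
  have h1 : ∀ N : ℕ, B F (R + S) ^ N ⊆ (T ^ N : Finset G) * B F 1 := fun N => by
    induction N with
    | zero => intro g hg; rw [pow_zero, Set.mem_one] at hg
              exact ⟨1, by simp, g, by simp [B, hg, h.len_one], one_mul _⟩
    | succ N ih =>
      rw [pow_succ, pow_succ, Finset.coe_mul, mul_assoc]
      refine (mul_subset_mul_right ih).trans ?_
      rw [mul_assoc]
      refine mul_subset_mul_left ?_
      rintro _ ⟨a, ha, b, hb, rfl⟩
      obtain ⟨x, hx, y, hy, e⟩ := mem_iUnion₂.1 (hT ((h.len_mul a b).trans (add_le_add ha hb)))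
      exact ⟨x, hx, y, hy, e⟩
  refine ⟨(D * (2 + 2 * R) + 3) * (T.card + 1), one_le_mul_of_one_le_of_one_le
    (by nlinarith) (by linarith [(Nat.cast_nonneg T.card : (0 : ℝ) ≤ T.card)]), fun J hJ =>
    ⟨T ^ (1 + ⌈D * (2 + 2 * R) * J⌉₊ + 1), ?_, fun g hg => h1 _ ?_⟩⟩
  · have a1 : (((1 + ⌈D * (2 + 2 * R) * J⌉₊ + 1 : ℕ) : ℝ)) ≤ (D * (2 + 2 * R) + 3) * J := by
      have := (Nat.ceil_lt_add_one (a := D * (2 + 2 * R) * J) (by positivity)).le
      push_cast
      linarith
    calc _ ≤ (T.card : ℝ) ^ (1 + ⌈D * (2 + 2 * R) * J⌉₊ + 1) := by exact_mod_cast Finset.card_pow_le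
      _ ≤ Real.exp (T.card + 1) ^ _ := pow_le_pow_left₀ (by positivity)
          (by linarith [Real.add_one_le_exp ((T.card : ℝ) + 1)]) _
      _ ≤ _ := by
          rw [← Real.exp_nat_mul, mul_right_comm (_ + 3)]
          gcongr
  · obtain ⟨x, hx, t, -, y, hy, rfl⟩ := kak g
    rw [pow_add, pow_add, pow_one]
    have hx' := hR' x hx
    have hy' := hR' y hy
    refine mul_mem_mul (mul_mem_mul (hx'.trans (by linarith)) (a_mem_pow h
      (fun t ht => (hS' t ht).trans (by linarith)) _ t fun i => ?_)) (hy'.trans (by linarith))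
    have a1 := len3 h x⁻¹ (x * F.a t * y) y⁻¹
    rw [len_inv, len_inv, show x⁻¹ * (x * F.a t * y) * y⁻¹ = F.a t by group] at a1
    have a2 : F.len (x * F.a t * y) ≤ J := hg
    have a3 := (hD' t i).trans (mul_le_mul_of_nonneg_left
      (show 1 + F.len (F.a t) ≤ (2 + 2 * R) * J by nlinarith) (by linarith))
    rw [← mul_assoc] at a3
    exact_mod_cast a3.trans (Nat.le_ceil _)

theorem vol [MeasurableSpace G] [BorelSpace G] (μ : Measure G) [μ.IsHaarMeasure] :
    ∃ C : ℝ, 1 ≤ C ∧ ∀ J, 1 ≤ J → μ.real (B F J) ≤ Real.exp (C * J) := by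
  obtain ⟨C, hC, H⟩ := cover h
  have h0 : 0 ≤ μ.real (B F 1) := measureReal_nonneg
  refine ⟨C + μ.real (B F 1), by linarith, fun J hJ => ?_⟩
  obtain ⟨T, hT, hB⟩ := H J hJ
  have h1 : μ.real (B F J) ≤ ∑ x ∈ T, μ.real (x • B F 1) := by
    refine le_trans (measureReal_mono ?_ ?_) (measureReal_biUnion_finset_le T fun x => x • B F 1)
    · intro g hg
      obtain ⟨x, hx, y, hy, e⟩ := hB hg
      exact mem_iUnion₂.2 ⟨x, hx, y, hy, e⟩
    · exact (T.isCompact_biUnion fun x _ => (cpt_B h 1).smul x).measure_lt_top.ne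
  simp only [Measure.real, measure_smul, Finset.sum_const, nsmul_eq_mul] at h1 h0 ⊢
  rw [add_mul, Real.exp_add]
  refine h1.trans (mul_le_mul hT ?_ h0 (by positivity))
  nlinarith [Real.add_one_le_exp ((μ (B F 1)).toReal * J)]

variable {Γ : Type} [Group Γ] (e : Γ →* G)

theorem gp (hd : ∀ K, IsCompact K → (e ⁻¹' K).Finite) : ∃ C : ℝ, ∀ C', C ≤ C' →
    P092NW.Gp (fun γ => F.len (e γ)) (fun i γ => F.κ (e γ)⁻¹ i) C' := by
  classical
  obtain ⟨C, hC, H⟩ := cover h
  obtain ⟨D, hD, H'⟩ := h.κ_lip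
  let m := (hd _ (cpt_B h 2)).toFinset
  have m0 : (0 : ℝ) ≤ m.card := Nat.cast_nonneg _
  refine ⟨C + D + m.card, fun C' hC' => ⟨by linarith, fun _ => len_nonneg _, by simp [h.len_one],
    fun γ => by simp [len_inv], fun s t => by rw [map_mul]; exact h.len_mul _ _, fun J hJ S hS => ?_,
    fun i s γ t => ?_⟩⟩
  · obtain ⟨T, hT, hB⟩ := H J hJ
    choose! x hx y hy hxy using fun s (hs : s ∈ S) => hB (hS s hs)
    have h1 := Finset.card_le_mul_card_image_of_maps_to (f := x) (s := S) (t := T) hx m.card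
      fun b _ => by
        rcases (S.filter fun a => x a = b).eq_empty_or_nonempty with e0 | ⟨s₀, h0⟩
        · simp [e0]
        refine Finset.card_le_card_of_injOn (fun s => s₀⁻¹ * s) (fun s hs => ?_)
          (mul_right_injective _).injOn
        obtain ⟨a1, a2⟩ := Finset.mem_filter.1 h0
        obtain ⟨a3, a4⟩ := Finset.mem_filter.1 hs
        refine (Finite.mem_toFinset _).2 ?_
        show F.len (e (s₀⁻¹ * s)) ≤ 2
        have b1 : F.len (y s₀) ≤ 1 := hy _ a1
        have b2 : F.len (y s) ≤ 1 := hy _ a3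
        rw [map_mul, map_inv, ← hxy _ a1, ← hxy _ a3, a2, a4]
        simp only [_root_.mul_inv_rev, mul_assoc, inv_mul_cancel_left]
        linarith [h.len_mul (y s₀)⁻¹ (y s), len_inv (F := F) (y s₀)]
    calc (S.card : ℝ) ≤ m.card * T.card := by exact_mod_cast h1
      _ ≤ Real.exp (m.card * J) * Real.exp (C * J) :=
          mul_le_mul (by nlinarith [Real.add_one_le_exp (m.card * J)]) hT (by positivity) (by positivity)
      _ ≤ _ := by rw [← Real.exp_add, Real.exp_le_exp]; nlinarith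
  · have := (norm_le_pi_norm _ i).trans (H' (e t)⁻¹ (e γ)⁻¹ (e s)⁻¹)
    rw [len_inv, len_inv, add_comm] at this
    simp only [map_mul, _root_.mul_inv_rev, ← mul_assoc]
    exact this.trans (mul_le_mul_of_nonneg_right (by linarith)
      (add_nonneg (len_nonneg _) (len_nonneg _)))

end Vale.Agent.P092GE
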