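import Vale.Agent.P092GE.Cov
import Vale.Agent.P092GB.Cell

/-!
P092 (helper96), block GEO: deep elements of a Levi subgroup with bounded other gaps.
-/

set_option linter.all false

open Filter Topology MeasureTheory Set

namespace Vale.Agent.P092GE

open P092GK P092GK.FlD P092GD

theorem lim_bd {k X : Type} [NontriviallyNormedField k] [CompleteSpace k] [NormedAddCommGroup X]
    [NormedSpace k X] [FiniteDimensional k X] (T : ℕ → X →L[k] X) : ∃ C : ℝ, 1 ≤ C ∧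
      ∀ x y, Tendsto (fun n => T n x) atTop (𝓝 y) → ‖y‖ ≤ C * ‖x‖ := by
  let S : Submodule k (X × X) :=
    { carrier := {q | Tendsto (fun n => T n q.1) atTop (𝓝 q.2)}
      add_mem' := fun a b => by simpa only [mem_setOf_eq, Prod.fst_add, Prod.snd_add, map_add] using a.add b
      zero_mem' := by simpa using tendsto_const_nhds
      smul_mem' := fun c q a => by
        simpa only [mem_setOf_eq, Prod.smul_fst, Prod.smul_snd, map_smul] using a.const_smul c }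
  obtain ⟨K, -, hK⟩ := ((LinearMap.fst k X X).comp S.subtype).exists_antilipschitzWith
    (LinearMap.ker_eq_bot'.2 fun q hq => by
      have h1 : q.1.1 = 0 := hq
      have h2 : Tendsto (fun n => T n q.1.1) atTop (𝓝 q.1.2) := q.2
      simp only [h1, map_zero] at h2
      exact Subtype.ext (Prod.ext h1 (tendsto_nhds_unique h2 tendsto_const_nhds)))
  refine ⟨K + 1, by simp, fun x y hy => (norm_snd_le (x, y)).trans
    ((ZeroHomClass.bound_of_antilipschitz _ hK (⟨(x, y), hy⟩ : S)).trans ?_)⟩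
  exact mul_le_mul_of_nonneg_right (by simp) (norm_nonneg x)

variable {k : Type} [NontriviallyNormedField k] {G : Type} [Group G] {r : ℕ} {F : FlD k G r}
  [TopologicalSpace G] [IsTopologicalGroup G] [T2Space G] [ProperSpace k] (h : Fl F)
include h

theorem len_lp (θ : Finset (Fin r)) : ∃ C : ℝ, 0 ≤ C ∧ ∀ p ∈ F.P θ, F.len (F.lp θ p) ≤ F.len p + C := by
  obtain ⟨C, hC, H⟩ := lim_bd fun n =>
    ContinuousLinearMap.mulLeftRight k (Al F) (W F (F.cb θ ^ n)⁻¹) (W F (F.cb θ ^ n))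
  have key : ∀ p l, Tendsto (fun n : ℕ => (F.cb θ ^ n)⁻¹ * p * F.cb θ ^ n) atTop (𝓝 l) → ∀ j,
      F.lam l j ≤ F.len p + Real.log C := fun p l hl j => by
    have h1 := H (W F p) (W F l) ((((cont_W h).tendsto l).comp hl).congr fun n => by
      simp only [Function.comp, map_mul]; rfl)
    rw [← Real.exp_le_exp, h.exp_lam, Real.exp_add, Real.exp_log (by linarith), mul_comm]
    exact (norm_le_pi_norm (W F l) j).trans (h1.trans
      (mul_le_mul_of_nonneg_left (norm_W_len h p) (by linarith)))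
  refine ⟨Real.log C, Real.log_nonneg hC, fun p hp => h.len_le
    (add_nonneg (len_nonneg _) (Real.log_nonneg hC)) (key _ _ (h.lp_spec hp).2.2) fun j => ?_⟩
  rw [← len_inv]
  exact key _ _ ((h.lp_spec hp).2.2.inv.congr fun n => by group) j

theorem shrink (a : G) : ∃ C : ℝ, 1 ≤ C ∧ ∀ u, Tendsto (fun n : ℕ => (a ^ n)⁻¹ * u * a ^ n) atTop (𝓝 1) →
    ∀ (n : ℕ) (S : ℝ), 0 ≤ S → C * (1 + F.len u + S) ≤ n →
      gam F ((a ^ n)⁻¹ * u * a ^ n) ≤ Real.exp (-S) := by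
  obtain ⟨C, c, hC, hc, H⟩ := contr h a
  refine ⟨(2 * C + 1) / c + 1, by linarith [show 0 ≤ (2 * C + 1) / c by positivity],
    fun u hu n S hS hn => (H u hu n).trans ?_⟩
  have h0 := len_nonneg (F := F) u
  have h1 : gam F u ≤ 2 * Real.exp (F.len u) := by linarith [gam_le_len h u, Real.one_le_exp h0]
  have h2 : (2 * C + 1) * (1 + F.len u + S) ≤ c * n := by
    have := mul_le_mul_of_nonneg_left hn hc.le
    rw [← mul_assoc, mul_add c, mul_div_cancel₀ _ hc.ne'] at this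
    nlinarith
  calc _ ≤ C * Real.exp (-(c * n)) * (2 * Real.exp (F.len u)) := by gcongr
    _ = 2 * C * Real.exp (-(c * n) + F.len u) := by rw [Real.exp_add]; ring
    _ ≤ Real.exp (2 * C) * Real.exp (-(c * n) + F.len u) := by
        gcongr; linarith [Real.add_one_le_exp (2 * C)]
    _ ≤ _ := by rw [← Real.exp_add, Real.exp_le_exp]; nlinarith

theorem cb_pow (θ : Finset (Fin r)) (n : ℕ) :
    F.cb θ ^ n = F.a fun i => if i ∈ θ then (n : ℤ) else 0 := by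
  induction n with
  | zero => simp only [pow_zero, Nat.cast_zero, ite_self]; exact h.a_zero.symm
  | succ n ih =>
    rw [pow_succ, ih, FlD.cb, ← h.a_add]
    exact congrArg F.a (funext fun i => by by_cases e : i ∈ θ <;> simp [e])

theorem cell [LocallyCompactSpace G] (θ : Finset (Fin r)) : ∃ ε : ℝ, 0 < ε ∧ ∃ K, IsCompact K ∧
    K ⊆ F.Um ∧ ∀ w y, F.len w ≤ 1 → F.dP θ w 1 ≤ ε → F.dP θ y 1 ≤ ε →
      ∃ u ∈ K, ∃ p ∈ F.P θ, w * y = u * p := by
  obtain ⟨N, hN, h1, h2⟩ := local_compact_nhds (h.isOpen_Ω.mem_nhds h.one_mem)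
  obtain ⟨C, hC, H⟩ := h.dY_lip
  letI := h.metricY θ
  obtain ⟨ε, hε, hb⟩ := Metric.mem_nhds_iff.1
    ((QuotientGroup.isOpenMap_coe (N := F.P θ)).image_mem_nhds hN)
  refine ⟨ε / (C * Real.exp 2 + 2), by positivity, _, h2.image_of_continuousOn (h.lo_cont.mono h1),
    by rintro _ ⟨n, hn, rfl⟩; exact h.lo_mem n (h1 hn), fun w y hw a b => ?_⟩
  obtain ⟨n, hn, e⟩ := hb (show ((w * y : G) : F.Y θ) ∈ _ from by
    show F.dY θ ((w * y : G) : F.Y θ) ((1 : G) : F.Y θ) < ε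
    have a1 := dY_triangle (θ := θ) ((w * y : G) : F.Y θ) (w : F.Y θ) ((1 : G) : F.Y θ)
    have a2 := H θ w y (1 : G)
    rw [smul_mk, smul_mk, mul_one] at a2
    have a3 : C * Real.exp (2 * F.len w) * F.dY θ (y : F.Y θ) ((1 : G) : F.Y θ) ≤
        C * Real.exp 2 * (ε / (C * Real.exp 2 + 2)) :=
      mul_le_mul (by gcongr; linarith) b (dY_nonneg _ _) (by positivity)
    have a4 : (C * Real.exp 2 + 2) * (ε / (C * Real.exp 2 + 2)) = ε := by field_simp
    have a5 : 0 < ε / (C * Real.exp 2 + 2) := by positivity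
    rw [dY_mk θ w] at a1
    linarith)
  refine ⟨_, ⟨n, hn, rfl⟩, F.md n * F.up n * (n⁻¹ * (w * y)), (F.P θ).mul_mem ((F.P θ).mul_mem
    (h.z_mem_P (h.md_mem (h1 hn)) θ) (h.up_mem_P (h.up_mem n (h1 hn)) θ)) (QuotientGroup.eq.1 e), ?_⟩
  rw [← mul_assoc (F.lo n), ← mul_assoc (F.lo n), F.lo_md_up, mul_inv_cancel_left]

theorem seen (S : ℝ) : ∃ E : ℝ, 1 ≤ E ∧ ∀ g, (∀ j, F.lam g j ≤ F.ht g j + S) →
    ∃ x, ∃ z ∈ F.Z, ∃ u ∈ F.Up, g = x * z * u ∧ F.len x ≤ E ∧ F.len u ≤ E ∧ ‖F.ℓ z - F.κ g‖ ≤ E := by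
  obtain ⟨K, hK, iwa⟩ := h.iwa
  obtain ⟨R, hR, hR'⟩ := h.len_cpt hK
  obtain ⟨C, hC, H⟩ := h.ht_bound
  obtain ⟨D, hD, H'⟩ := F.co_bound
  obtain ⟨R', hR1, hR2⟩ := h.len_cpt (h.up_proper (Real.exp (|S| + 2 * C + 2 * R)))
  have h0 := abs_nonneg S
  have h5 : 0 ≤ D * (|S| + 2 * C + R) := by positivity
  refine ⟨R + R' + D * (|S| + 2 * C + R), by linarith, fun g hg => ?_⟩
  obtain ⟨x, hx, z, hz, u, hu, rfl⟩ := iwa g
  have h1 : ∀ j, |F.ω (F.ℓ z) j - F.lam (x * z * u) j| ≤ |S| + 2 * C + R := fun j => by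
    have a1 := hg j
    have a2 : F.ht (x * z * u) j ≤ F.lam (x * z * u) j + C := by
      have := (abs_le.1 (H 1 j).1).2
      rw [h.len_one, ← Real.exp_le_exp, h.exp_ht, V_one, add_zero] at this
      rw [← Real.exp_le_exp, Real.exp_add, h.exp_ht, h.exp_lam]
      exact (ContinuousLinearMap.le_opNorm _ _).trans (by gcongr)
    rw [h.ht_up hu, h.ht_z hz, Pi.add_apply] at a1 a2
    have a3 := abs_le.1 (H x j).1
    rw [abs_le]
    constructor <;> linarith [hR' x hx, le_abs_self S]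
  refine ⟨x, z, hz, u, hu, rfl, by linarith [hR' x hx], (hR2 u ⟨hu, fun j => ?_⟩).trans (by linarith), ?_⟩
  · have a1 : F.ht' (z * u) j ≤ F.lam (z * u) j + C := by
      have := (abs_le.1 (H 1 j).2).2
      rw [h.len_one, ← Real.exp_le_exp, h.exp_ht', map_one, add_zero] at this
      rw [← Real.exp_le_exp, Real.exp_add, h.exp_ht', h.exp_lam, mul_comm]
      exact (ContinuousLinearMap.opNorm_comp_le _ _).trans
        (mul_le_mul_of_nonneg_right this (norm_nonneg _))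
    have a2 := (abs_le.1 (h.lam_lip x (z * u) 1 j)).1
    have a3 := hg j
    rw [h.ht_up hu, h.ht_z hz, Pi.add_apply] at a3
    rw [h.ht'_z hz, Pi.add_apply] at a1
    rw [mul_one, h.len_one, ← mul_assoc] at a2
    rw [← h.exp_ht', Real.exp_le_exp]
    linarith [(abs_le.1 (H x j).1).2, hR' x hx, le_abs_self S]
  · rw [← h.co_ω (F.ℓ z), FlD.κ, ← co_sub]
    refine (H' _).trans ((mul_le_mul_of_nonneg_left ((pi_norm_le_iff_of_nonneg (by positivity)).2 h1)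
      (by linarith)).trans (by linarith))

/-- **deep elements of the Levi subgroup** -/
theorem lev (θ : Finset (Fin r)) : ∃ C : ℝ, 1 ≤ C ∧ ∀ l ∈ F.L θ, ∀ t : Fin r → ℤ, 0 ≤ t →
    (∀ i ∈ θ, C * (1 + F.len l) ≤ t i) → ∀ R, 1 ≤ R → (∀ i, i ∉ θ → |F.κ (l * F.a t) i| ≤ R) →
      ∃ s, F.len (l * F.a t * (F.a s)⁻¹) ≤ C * R := by
  obtain ⟨O, hO, hO1, hO2⟩ := mem_nhds_iff.1 ((P092GB.c2 h θ).loc _ (B_nhds h one_pos))
  obtain ⟨S, hS, c, hc, tst⟩ := h.test hO1 ⟨1, hO2⟩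
  obtain ⟨L₀, hL₀, -, hL⟩ := h.um_bdd (cpt_B h 1)
  obtain ⟨R₀, hR₀, hR₀'⟩ := h.len_cpt hL₀
  obtain ⟨R₁, hR₁, hR₁'⟩ := h.len_cpt (h.zprop F.β)
  obtain ⟨C₁, hC₁, shr⟩ := shrink h (F.cb θ)⁻¹
  obtain ⟨E, hE, see⟩ := seen h (2 - Real.log c)
  obtain ⟨C₂, hC₂, hlp⟩ := len_lp h θ
  obtain ⟨C₃, hC₃, hκ⟩ := h.κ_lip
  obtain ⟨C₄, hC₄, hla⟩ := len_a h
  have hβ := h.β_pos
  have p1 : 0 ≤ C₁ * (R₀ + 2) := by positivity
  have p2 : 0 ≤ C₄ * ((E + C₃ + 1) / F.β + 1) := by positivity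
  refine ⟨C₁ * (R₀ + 2) + 1 + (2 * (E + C₂) + R₁ + 1 + C₄ * ((E + C₃ + 1) / F.β + 1)), by linarith,
    fun l hl t ht hθ R hR hκ' => ?_⟩
  have l0 := len_nonneg (F := F) l
  obtain ⟨f, hf, hf'⟩ := tst fun j => F.V j (l * F.a t)
  obtain ⟨u, hu, u1, l₁, hl₁, l1, v, hv, -, rfl⟩ := hO (hS hf)
  let N := ⌈C₁ * (1 + R₀ + 2 * F.len l)⌉₊
  let t' : Fin r → ℤ := t - fun i => if i ∈ θ then (N : ℤ) else 0
  have ht' : 0 ≤ t' := fun i => by
    by_cases e : i ∈ θ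
    · have a1 := (Nat.ceil_lt_add_one (a := C₁ * (1 + R₀ + 2 * F.len l)) (by positivity)).le
      have a2 := hθ i e
      have a3 : (N : ℝ) ≤ t i := by
        nlinarith [mul_nonneg (zero_le_one.trans hC₁) l0,
          mul_nonneg (mul_nonneg (zero_le_one.trans hC₁) (zero_le_one.trans hR₀)) l0,
          mul_nonneg p2 l0, mul_nonneg (show 0 ≤ 2 * (E + C₂) + R₁ + 1 by linarith) l0]
      simp only [t', Pi.sub_apply, if_pos e, Pi.zero_apply, sub_nonneg]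
      exact_mod_cast a3
    · simpa [t', e] using ht i
  have e1 : F.a t = F.cb θ ^ N * F.a t' := by rw [cb_pow h, ← h.a_add, add_sub_cancel]
  have q1 : F.len (l * F.a t * u * (l * F.a t)⁻¹) ≤ 1 := by
    have a1 := shr _ (by
      simp only [inv_pow, inv_inv]; exact h.U'_conj (h.z_mem_L (h.a_mem t') θ) hu) N
      (2 * F.len l) (by linarith) (le_trans (by
        gcongr; exact hR₀' _ (hL _ (h.a_dom ht') u u1 (h.U'_le_Um θ hu))) (Nat.le_ceil _))
    have a2 := (gam_conj h l⁻¹ _).trans (mul_le_mul_of_nonneg_left a1 (by positivity))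
    rw [len_inv, ← Real.exp_add, add_neg_cancel, Real.exp_zero] at a2
    refine (len_le_gam h _).trans (le_of_eq_of_le (congrArg _ ?_) a2)
    rw [e1]; group
  obtain ⟨x, z, hz, w, hw, e, hx, hw', hz'⟩ := see (l * F.a t * l₁) fun j => by
    have a1 := Real.log_le_log (mul_pos hc (norm_pos_iff.2 (h.V_ne j _))) (hf' j)
    rw [Real.log_mul hc.ne' (norm_ne_zero_iff.2 (h.V_ne j _)), ← V_mul] at a1
    change _ + F.lam _ j ≤ F.ht _ j at a1
    rw [show l * F.a t * (u * l₁ * v) = l * F.a t * u * (l * F.a t)⁻¹ * (l * F.a t * l₁) * v by group,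
      h.ht_up (h.U_le_Up θ hv)] at a1
    have a2 := (abs_le.1 (h.ht_lip (l * F.a t * u * (l * F.a t)⁻¹) (l * F.a t * l₁) j)).2
    have a3 : F.len l₁ ≤ 1 := l1
    linarith [h.lam_mul (l * F.a t) l₁ j, lam_le_len (F := F) l₁ j]
  have m1 := (F.L θ).mul_mem ((F.L θ).mul_mem hl (h.z_mem_L (h.a_mem t) θ)) hl₁
  have m2 := h.z_mem_P hz θ
  have m3 := h.up_mem_P hw θ
  have m4 : x ∈ F.P θ := by
    have := h.L_le_P θ m1
    rwa [e, (F.P θ).mul_mem_cancel_right m3, (F.P θ).mul_mem_cancel_right m2] at this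
  have e2 := congrArg (F.lp θ) e
  rw [h.lp_L m1, h.lp_mul ((F.P θ).mul_mem m4 m2) m3, h.lp_mul m4 m2, h.lp_L (h.z_mem_L hz θ)] at e2
  let s : Fin r → ℤ := fun i => ⌊F.ℓ z i / F.β⌋
  let s' : Fin r → ℤ := fun i => if i ∈ θ then s i else 0
  have m5 : (F.a s)⁻¹ * z * F.lp θ w * l₁⁻¹ ∈ F.L θ := (F.L θ).mul_mem ((F.L θ).mul_mem
    (h.z_mem_L (h.z_dec hz).1 θ) (h.lp_spec m3).1) ((F.L θ).inv_mem hl₁)
  have e3 := h.a_comm_L m5 (t := s') fun i hi => if_neg hi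
  have e4 : F.a s = F.a (s - s') * F.a s' := by rw [← h.a_add, sub_add_cancel]
  refine ⟨s', ?_⟩
  have e5 : l * F.a t * (F.a s')⁻¹ =
      F.lp θ x * F.a (s - s') * ((F.a s)⁻¹ * z * F.lp θ w * l₁⁻¹) := by
    calc _ = F.lp θ x * F.a s * ((F.a s)⁻¹ * z * F.lp θ w * l₁⁻¹) * (F.a s')⁻¹ := by
          rw [← mul_inv_cancel_right (l * F.a t) l₁, e2]; group
      _ = F.lp θ x * F.a (s - s') * (F.a s' * ((F.a s)⁻¹ * z * F.lp θ w * l₁⁻¹)) * (F.a s')⁻¹ := by
          conv_lhs => rw [mul_assoc (F.lp θ x), ← mul_assoc (F.lp θ x)]; enter [1, 1, 2]; rw [e4]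
          simp only [mul_assoc]
      _ = _ := by rw [e3]; group
  have b1 : F.len (F.a (s - s')) ≤ C₄ * (((E + C₃ + 1) / F.β + 1) * R) := hla _ _ (by positivity) fun i => by
    by_cases e : i ∈ θ
    · simp only [s', Pi.sub_apply, if_pos e, sub_self, Int.cast_zero, abs_zero]; positivity
    simp only [s', Pi.sub_apply, if_neg e, sub_zero]
    have a1 := abs_le.1 ((norm_le_pi_norm _ i).trans hz')
    have a2 := abs_le.1 ((norm_le_pi_norm _ i).trans (hκ 1 (l * F.a t) l₁))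
    have a3 := abs_le.1 (hκ' i e)
    have a4 : C₃ * (F.len 1 + F.len l₁) ≤ C₃ := by
      rw [h.len_one, zero_add]; exact mul_le_of_le_one_right (by linarith) l1
    simp only [one_mul, Pi.sub_apply] at a1 a2
    have a5 : |F.ℓ z i / F.β| ≤ (E + C₃ + 1) / F.β * R := by
      rw [abs_div, abs_of_pos hβ, div_mul_eq_mul_div]
      refine div_le_div_of_nonneg_right (abs_le.2 ⟨?_, ?_⟩) hβ.le <;> nlinarith
    have a6 := abs_le.1 a5
    rw [abs_le]
    constructor <;> linarith [Int.floor_le (F.ℓ z i / F.β), Int.lt_floor_add_one (F.ℓ z i / F.β)]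
  have b2 := len3 h ((F.a s)⁻¹ * z) (F.lp θ w) l₁⁻¹
  have b3 : F.len l₁ ≤ 1 := l1
  rw [len_inv] at b2
  rw [e5]
  refine (len3 h _ _ _).trans ?_
  nlinarith [hlp x m4, hlp w m3, hR₁' _ (h.z_dec hz)]

end Vale.Agent.P092GE
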